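import Vale.Agent.P322.Defs

/-! # P322: definitions for the stronger form of the Courtade-Kumar inequality -/

namespace Vale.Agent.P322

/-- The expectation `E f(X)` of a sign-valued function, `X` uniform on `{-1,1}^n`. -/
noncomputable def bias (n : ℕ) (f : (Fin n → ℤˣ) → ℤˣ) : ℝ :=
  (1 / 2) ^ n * ∑ x : Fin n → ℤˣ, ((f x : ℤ) : ℝ)

/-- `W` is a probability kernel from `α` to the finite set `β`: `W a b` is the probability of the
output `b` at the input `a`. -/
def IsKernel {α β : Type} [Fintype β] (W : α → β → ℝ) : Prop :=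
  (∀ a b, 0 ≤ W a b) ∧ ∀ a, ∑ b, W a b = 1

/-- Joint law of `(U, V)` in the Markov chain `U - X - Y - V`: `X` is uniform on `{-1,1}^n`,
`Y = X * Z` coordinatewise, where the signs `Z i` are independent of `X` and of each other and
`Z i = -1` with probability `ε i`; given `(X, Y) = (x, y)`, `U` and `V` are independent with laws
`W x` and `K y`. -/
noncomputable def chainLaw {β : Type} (n : ℕ) (ε : Fin n → ℝ) (W : (Fin n → ℤˣ) → ℤˣ → ℝ)
    (K : (Fin n → ℤˣ) → β → ℝ) (u : ℤˣ) (v : β) : ℝ :=
  ∑ x : Fin n → ℤˣ, ∑ z : Fin n → ℤˣ,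
    (1 / 2) ^ n * (∏ i, (if z i = -1 then ε i else 1 - ε i)) * W x u * K (x * z) v

end Vale.Agent.P322
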