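import Mathlib
import Vale.Agent.P322.Bdl.B2
import Vale.Agent.P322.H880.Defs

/-! # P322: deficit in the bias, and Markov chains `U - X - Y - V` -/

namespace Vale.Agent.P322.H880

open Finset Vale.Agent.P322

/-! ## Log-sum inequality -/

lemma term_le {a b r : ℝ} (ha : 0 ≤ a) (hb : 0 ≤ b) (hab : b = 0 → a = 0) (hr : 0 < r) :
    a * Real.log r + a - b * r ≤ a * Real.log (a / b) := by
  rcases ha.eq_or_lt with h | h
  · subst h
    simp only [zero_mul, zero_add, zero_sub]
    have := mul_nonneg hb hr.le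
    linarith
  · have hb' : 0 < b := lt_of_le_of_ne hb (fun hh => h.ne' (hab hh.symm))
    have h1 : Real.log (a / b) - Real.log r = Real.log (a / b / r) := by
      rw [Real.log_div (by positivity) hr.ne']
    have h2 := Real.one_sub_inv_le_log_of_pos (show 0 < a / b / r by positivity)
    have h3 : a * (1 - (a / b / r)⁻¹) ≤ a * Real.log (a / b / r) :=
      mul_le_mul_of_nonneg_left h2 ha
    have h4 : a * (1 - (a / b / r)⁻¹) = a - b * r := by
      field_simp
    rw [← h1] at h3
    linarith

lemma log_sum {ι : Type*} (s : Finset ι) (a b : ι → ℝ) (ha : ∀ i ∈ s, 0 ≤ a i)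
    (hb : ∀ i ∈ s, 0 ≤ b i) (hab : ∀ i ∈ s, b i = 0 → a i = 0) :
    (∑ i ∈ s, a i) * Real.log ((∑ i ∈ s, a i) / ∑ i ∈ s, b i)
      ≤ ∑ i ∈ s, a i * Real.log (a i / b i) := by
  rcases (Finset.sum_nonneg ha).eq_or_lt with h | h
  · rw [← h, zero_mul]
    have h0 := (Finset.sum_eq_zero_iff_of_nonneg ha).1 h.symm
    refine le_of_eq ?_
    symm
    exact Finset.sum_eq_zero (fun i hi => by rw [h0 i hi, zero_mul])
  · have hB : 0 < ∑ i ∈ s, b i := by
      rcases (Finset.sum_nonneg hb).eq_or_lt with h' | h'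
      · exfalso
        have h0 := (Finset.sum_eq_zero_iff_of_nonneg hb).1 h'.symm
        have : ∑ i ∈ s, a i = 0 := Finset.sum_eq_zero (fun i hi => hab i hi (h0 i hi))
        linarith
      · exact h'
    set r := (∑ i ∈ s, a i) / ∑ i ∈ s, b i with hr
    have hr0 : 0 < r := div_pos h hB
    have h1 : ∑ i ∈ s, (a i * Real.log r + a i - b i * r) ≤ ∑ i ∈ s, a i * Real.log (a i / b i) :=
      Finset.sum_le_sum (fun i hi => term_le (ha i hi) (hb i hi) (hab i hi) hr0)
    refine le_trans (le_of_eq ?_) h1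
    rw [Finset.sum_sub_distrib, Finset.sum_add_distrib, ← Finset.sum_mul, ← Finset.sum_mul, hr]
    field_simp
    ring

/-! ## Mutual information: data processing and convexity -/

variable {α β γ : Type} [Fintype α] [Fintype β] [Fintype γ]

lemma mutualInfo_eq (p : α → β → ℝ) : mutualInfo p
    = (∑ a, ∑ b, p a b * Real.log (p a b / ((∑ b', p a b') * (∑ a', p a' b)))) / Real.log 2 := by
  unfold mutualInfo Real.logb
  rw [Finset.sum_div]
  refine Finset.sum_congr rfl (fun a _ => ?_)
  rw [Finset.sum_div]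
  exact Finset.sum_congr rfl (fun b _ => by ring)

lemma le_marg1 {p : α → β → ℝ} (hp : ∀ a b, 0 ≤ p a b) (a : α) (b : β) :
    p a b ≤ ∑ b', p a b' :=
  Finset.single_le_sum (f := fun b' => p a b') (fun i _ => hp a i) (Finset.mem_univ b)

lemma le_marg2 {p : α → β → ℝ} (hp : ∀ a b, 0 ≤ p a b) (a : α) (b : β) :
    p a b ≤ ∑ a', p a' b :=
  Finset.single_le_sum (f := fun a' => p a' b) (fun i _ => hp i b) (Finset.mem_univ a)

/-- Data processing: applying a kernel to the second variable does not increase the mutual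
information. -/
theorem data_processing {p : α → β → ℝ} (hp : ∀ a b, 0 ≤ p a b) {K : β → γ → ℝ}
    (hK : IsKernel K) :
    mutualInfo (fun a c => ∑ b, p a b * K b c) ≤ mutualInfo p := by
  rw [mutualInfo_eq, mutualInfo_eq]
  refine div_le_div_of_nonneg_right ?_ (Real.log_pos (by norm_num)).le
  refine Finset.sum_le_sum (fun a _ => ?_)
  have hm1 : ∑ c, ∑ b, p a b * K b c = ∑ b, p a b := by
    rw [Finset.sum_comm]
    refine Finset.sum_congr rfl (fun b _ => ?_)
    rw [← Finset.mul_sum, hK.2 b, mul_one]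
  rw [hm1]
  have key : ∀ c, (∑ b, p a b * K b c) * Real.log ((∑ b, p a b * K b c)
      / ((∑ b, p a b) * ∑ a', ∑ b, p a' b * K b c))
      ≤ ∑ b, (p a b * K b c) * Real.log (p a b / ((∑ b', p a b') * ∑ a', p a' b)) := by
    intro c
    have e : (∑ b, p a b) * ∑ a', ∑ b, p a' b * K b c
        = ∑ b, ((∑ b', p a b') * ∑ a', p a' b) * K b c := by
      rw [Finset.sum_comm, Finset.mul_sum]
      refine Finset.sum_congr rfl (fun b _ => ?_)
      rw [← Finset.sum_mul]; ring
    rw [e]
    refine (log_sum Finset.univ _ _ (fun b _ => mul_nonneg (hp a b) (hK.1 b c)) (fun b _ => ?_)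
      (fun b _ h => ?_)).trans (le_of_eq (Finset.sum_congr rfl (fun b _ => ?_)))
    · exact mul_nonneg (mul_nonneg (Finset.sum_nonneg (fun b' _ => hp a b'))
        (Finset.sum_nonneg (fun a' _ => hp a' b))) (hK.1 b c)
    · rcases mul_eq_zero.1 h with h | h
      · rcases mul_eq_zero.1 h with h | h
        · have := le_marg1 hp a b
          have h2 := hp a b
          rw [show p a b = 0 by linarith, zero_mul]
        · have := le_marg2 hp a b
          have h2 := hp a b
          rw [show p a b = 0 by linarith, zero_mul]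
      · rw [h, mul_zero]
    · rcases (hK.1 b c).eq_or_lt with h | h
      · rw [← h]; simp
      · rw [mul_div_mul_right _ _ h.ne']
  refine (Finset.sum_le_sum (fun c _ => key c)).trans (le_of_eq ?_)
  rw [Finset.sum_comm]
  refine Finset.sum_congr rfl (fun b _ => ?_)
  rw [← Finset.sum_mul, ← Finset.mul_sum, hK.2 b, mul_one]

/-- Convexity of the mutual information among joint laws with the same second marginal. -/
theorem mutualInfo_convex {ι : Type} [Fintype ι] (l : ι → ℝ) (hl : ∀ j, 0 ≤ l j)
    (hl1 : ∑ j, l j = 1) (p : ι → α → β → ℝ) (hp : ∀ j a b, 0 ≤ p j a b) (q : β → ℝ)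
    (hq : ∀ j b, ∑ a, p j a b = q b) :
    mutualInfo (fun a b => ∑ j, l j * p j a b) ≤ ∑ j, l j * mutualInfo (p j) := by
  have hmarg : ∀ b, ∑ a, ∑ j, l j * p j a b = q b := by
    intro b
    rw [Finset.sum_comm]
    calc ∑ j, ∑ a, l j * p j a b = ∑ j, l j * q b :=
          Finset.sum_congr rfl (fun j _ => by rw [← Finset.mul_sum, hq j b])
      _ = q b := by rw [← Finset.sum_mul, hl1, one_mul]
  have key : ∀ a b, (∑ j, l j * p j a b) * Real.log ((∑ j, l j * p j a b)
      / ((∑ b', ∑ j, l j * p j a b') * ∑ a', ∑ j, l j * p j a' b))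
      ≤ ∑ j, l j * (p j a b * Real.log (p j a b / ((∑ b', p j a b') * ∑ a', p j a' b))) := by
    intro a b
    rw [hmarg b]
    have e : (∑ b', ∑ j, l j * p j a b') * q b = ∑ j, l j * ((∑ b', p j a b') * q b) := by
      rw [Finset.sum_comm, Finset.sum_mul]
      refine Finset.sum_congr rfl (fun j _ => ?_)
      rw [← Finset.mul_sum]; ring
    rw [e]
    refine (log_sum Finset.univ _ _ (fun j _ => mul_nonneg (hl j) (hp j a b)) (fun j _ => ?_)
      (fun j _ h => ?_)).trans (le_of_eq (Finset.sum_congr rfl (fun j _ => ?_)))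
    · refine mul_nonneg (hl j) (mul_nonneg (Finset.sum_nonneg (fun b' _ => hp j a b')) ?_)
      rw [← hq j b]
      exact Finset.sum_nonneg (fun a' _ => hp j a' b)
    · rcases mul_eq_zero.1 h with h | h
      · rw [h, zero_mul]
      · rcases mul_eq_zero.1 h with h | h
        · have := le_marg1 (hp j) a b
          have h2 := hp j a b
          rw [show p j a b = 0 by linarith, mul_zero]
        · rw [← hq j b] at h
          have := le_marg2 (hp j) a b
          have h2 := hp j a b
          rw [show p j a b = 0 by linarith, mul_zero]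
    · rw [hq j b]
      rcases (hl j).eq_or_lt with h | h
      · rw [← h]; simp
      · rw [mul_div_mul_left _ _ h.ne', mul_assoc]
  rw [mutualInfo_eq]
  have e2 : ∑ j, l j * mutualInfo (p j)
      = (∑ a, ∑ b, ∑ j, l j * (p j a b * Real.log (p j a b
        / ((∑ b', p j a b') * ∑ a', p j a' b)))) / Real.log 2 := by
    simp only [mutualInfo_eq]
    rw [Finset.sum_div]
    have : ∀ j, l j * ((∑ a, ∑ b, p j a b * Real.log (p j a b
        / ((∑ b', p j a b') * ∑ a', p j a' b))) / Real.log 2)
        = ∑ a, ∑ b, l j * (p j a b * Real.log (p j a b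
        / ((∑ b', p j a b') * ∑ a', p j a' b))) / Real.log 2 := by
      intro j
      rw [← mul_div_assoc, Finset.mul_sum, Finset.sum_div]
      refine Finset.sum_congr rfl (fun a _ => ?_)
      rw [Finset.mul_sum, Finset.sum_div]
    rw [Finset.sum_congr rfl (fun j _ => this j), Finset.sum_comm]
    refine Finset.sum_congr rfl (fun a _ => ?_)
    rw [Finset.sum_div, Finset.sum_comm]
    refine Finset.sum_congr rfl (fun b _ => ?_)
    rw [Finset.sum_div]
  rw [e2]
  exact div_le_div_of_nonneg_right
    (Finset.sum_le_sum (fun a _ => Finset.sum_le_sum (fun b _ => key a b)))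
    (Real.log_pos (by norm_num)).le

end Vale.Agent.P322.H880
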