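import Mathlib
import Vale.Agent.P322.H880.Main

/-! # P322: the Markov chain version -/

namespace Vale.Agent.P322.H880

open Finset Vale.Agent.P322

/-- Joint law of `(U, Y)`. -/
noncomputable def jl (n : ℕ) (ε : Fin n → ℝ) (W : (Fin n → ℤˣ) → ℤˣ → ℝ) (u : ℤˣ)
    (y : Fin n → ℤˣ) : ℝ :=
  (1 / 2) ^ n * ∑ x : Fin n → ℤˣ, (∏ i, ker (ε i) (x i) (y i)) * W x u

/-- Multiplication by `x` is a bijection of the cube. -/
def mulE {n : ℕ} (x : Fin n → ℤˣ) : (Fin n → ℤˣ) ≃ (Fin n → ℤˣ) where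
  toFun y := x * y
  invFun y := x * y
  left_inv y := by
    have := (pi_mul_eq_iff x (x * y) y).2 rfl
    exact this
  right_inv y := by
    have := (pi_mul_eq_iff x (x * y) y).2 rfl
    exact this

lemma chain_eq {β : Type} (n : ℕ) (ε : Fin n → ℝ) (W : (Fin n → ℤˣ) → ℤˣ → ℝ)
    (K : (Fin n → ℤˣ) → β → ℝ) (u : ℤˣ) (v : β) :
    chainLaw n ε W K u v = ∑ y, jl n ε W u y * K y v := by
  unfold chainLaw jl
  have h1 : ∀ x : Fin n → ℤˣ, ∑ z : Fin n → ℤˣ,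
      (1 / 2 : ℝ) ^ n * (∏ i, (if z i = -1 then ε i else 1 - ε i)) * W x u * K (x * z) v
      = ∑ y : Fin n → ℤˣ, (1 / 2 : ℝ) ^ n * ((∏ i, ker (ε i) (x i) (y i)) * W x u) * K y v := by
    intro x
    rw [← Equiv.sum_comp (mulE x)]
    refine Finset.sum_congr rfl (fun y _ => ?_)
    have e1 : x * (mulE x) y = y := (mulE x).left_inv y
    rw [e1]
    have e2 : ∀ i, (if (mulE x) y i = -1 then ε i else 1 - ε i) = ker (ε i) (x i) (y i) := by
      intro i; rfl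
    rw [Finset.prod_congr rfl (fun i _ => e2 i)]
    ring
  rw [Finset.sum_congr rfl (fun x _ => h1 x), Finset.sum_comm]
  refine Finset.sum_congr rfl (fun y _ => ?_)
  rw [Finset.mul_sum, Finset.sum_mul]

lemma ker_nonneg {e : ℝ} (h0 : 0 ≤ e) (h1 : e ≤ 1) (a b : ℤˣ) : 0 ≤ ker e a b := by
  unfold ker; split_ifs <;> linarith

lemma ker_comp (e d : ℝ) (a c : ℤˣ) :
    ker (e * (1 - d) + (1 - e) * d) a c = ∑ b : ℤˣ, ker e a b * ker d b c := by
  rw [sum_units]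
  rcases units_cases a with ha | ha <;> rcases units_cases c with hc | hc <;> subst ha <;>
    subst hc <;> simp [ker] <;> ring

lemma ker_sum (e : ℝ) (a : ℤˣ) : ∑ b : ℤˣ, ker e a b = 1 := by
  rw [sum_units]
  rcases units_cases a with ha | ha <;> subst ha <;> simp [ker]

lemma prod_sum_units {n : ℕ} (g : Fin n → ℤˣ → ℝ) :
    ∏ i, ∑ b : ℤˣ, g i b = ∑ y : Fin n → ℤˣ, ∏ i, g i (y i) := by
  rw [Finset.prod_univ_sum]
  rw [Fintype.piFinset_univ]

/-- The product kernel. -/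
noncomputable def PK (n : ℕ) (d : Fin n → ℝ) (y y' : Fin n → ℤˣ) : ℝ := ∏ i, ker (d i) (y i) (y' i)

lemma PK_kernel (n : ℕ) (d : Fin n → ℝ) (h0 : ∀ i, 0 ≤ d i) (h1 : ∀ i, d i ≤ 1) :
    IsKernel (PK n d) := by
  refine ⟨fun y y' => Finset.prod_nonneg (fun i _ => ker_nonneg (h0 i) (h1 i) _ _), fun y => ?_⟩
  unfold PK
  rw [← prod_sum_units (fun i b => ker (d i) (y i) b)]
  exact Finset.prod_eq_one (fun i _ => ker_sum (d i) (y i))

lemma jl_degrade (n : ℕ) (e : ℝ) (d : Fin n → ℝ) (W : (Fin n → ℤˣ) → ℤˣ → ℝ) (u : ℤˣ)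
    (y' : Fin n → ℤˣ) :
    jl n (fun i => e * (1 - d i) + (1 - e) * d i) W u y'
      = ∑ y, jl n (fun _ => e) W u y * PK n d y y' := by
  unfold jl PK
  have h1 : ∀ x : Fin n → ℤˣ, (∏ i, ker (e * (1 - d i) + (1 - e) * d i) (x i) (y' i))
      = ∑ y : Fin n → ℤˣ, (∏ i, ker e (x i) (y i)) * ∏ i, ker (d i) (y i) (y' i) := by
    intro x
    rw [Finset.prod_congr rfl (fun i _ => ker_comp e (d i) (x i) (y' i)),
      prod_sum_units (fun i b => ker e (x i) b * ker (d i) b (y' i))]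
    exact Finset.sum_congr rfl (fun y _ => Finset.prod_mul_distrib)
  rw [Finset.sum_congr rfl (fun x _ => by rw [h1 x]), Finset.mul_sum]
  have h2 : ∀ y : Fin n → ℤˣ, (1 / 2 : ℝ) ^ n * (∑ x : Fin n → ℤˣ, (∏ i, ker e (x i) (y i)) * W x u)
      * ∏ i, ker (d i) (y i) (y' i)
      = ∑ x : Fin n → ℤˣ, (1 / 2 : ℝ) ^ n * ((∏ i, ker e (x i) (y i)) * W x u)
        * ∏ i, ker (d i) (y i) (y' i) := by
    intro y; rw [Finset.mul_sum, Finset.sum_mul]
  rw [Finset.sum_congr rfl (fun y _ => h2 y), Finset.sum_comm]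
  refine Finset.sum_congr rfl (fun x _ => ?_)
  rw [Finset.sum_mul, Finset.mul_sum]
  exact Finset.sum_congr rfl (fun y _ => by ring)

/-- The weight of the Boolean function `f` in the randomised output `W`. -/
noncomputable def wt {n : ℕ} (W : (Fin n → ℤˣ) → ℤˣ → ℝ) (f : (Fin n → ℤˣ) → ℤˣ) : ℝ :=
  ∏ x, W x (f x)

lemma sum_wt {n : ℕ} (g : (Fin n → ℤˣ) → ℤˣ → ℝ) :
    ∑ f : (Fin n → ℤˣ) → ℤˣ, ∏ x, g x (f x) = ∏ x, ∑ b : ℤˣ, g x b := by
  rw [Finset.prod_univ_sum, Fintype.piFinset_univ]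

lemma wt_one {n : ℕ} {W : (Fin n → ℤˣ) → ℤˣ → ℝ} (hW : IsKernel W) :
    ∑ f : (Fin n → ℤˣ) → ℤˣ, wt W f = 1 := by
  unfold wt
  rw [sum_wt W]
  exact Finset.prod_eq_one (fun x _ => hW.2 x)

lemma wt_ind {n : ℕ} {W : (Fin n → ℤˣ) → ℤˣ → ℝ} (hW : IsKernel W) (x0 : Fin n → ℤˣ) (u : ℤˣ) :
    ∑ f : (Fin n → ℤˣ) → ℤˣ, wt W f * (if f x0 = u then 1 else 0) = W x0 u := by
  have h1 : ∀ f : (Fin n → ℤˣ) → ℤˣ, wt W f * (if f x0 = u then (1 : ℝ) else 0)
      = ∏ x, (W x (f x) * (if x = x0 then (if f x = u then (1 : ℝ) else 0) else 1)) := by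
    intro f
    rw [Finset.prod_mul_distrib]
    unfold wt
    congr 1
    rw [Finset.prod_ite_eq' Finset.univ x0 (fun x => if f x = u then (1 : ℝ) else 0),
      if_pos (Finset.mem_univ _)]
  rw [Finset.sum_congr rfl (fun f _ => h1 f),
    sum_wt (fun x b => W x b * (if x = x0 then (if b = u then (1 : ℝ) else 0) else 1))]
  have h2 : ∀ x, ∑ b : ℤˣ, W x b * (if x = x0 then (if b = u then (1 : ℝ) else 0) else 1)
      = if x = x0 then W x u else 1 := by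
    intro x
    by_cases hx : x = x0
    · simp only [hx, if_true]
      rw [Finset.sum_eq_single u]
      · simp
      · intro b _ hb; rw [if_neg hb, mul_zero]
      · intro h; exact absurd (Finset.mem_univ u) h
    · simp only [hx, if_false, mul_one]
      exact hW.2 x
  rw [Finset.prod_congr rfl (fun x _ => h2 x), Finset.prod_ite_eq' Finset.univ x0 (fun x => W x u),
    if_pos (Finset.mem_univ _)]

lemma jl_mix {n : ℕ} {W : (Fin n → ℤˣ) → ℤˣ → ℝ} (hW : IsKernel W) (e : ℝ) (u : ℤˣ)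
    (y : Fin n → ℤˣ) :
    jl n (fun _ => e) W u y = ∑ f : (Fin n → ℤˣ) → ℤˣ, wt W f * outLaw n e f u y := by
  unfold jl
  have h1 : ∀ f : (Fin n → ℤˣ) → ℤˣ, wt W f * outLaw n e f u y
      = ∑ x : Fin n → ℤˣ, (1 / 2 : ℝ) ^ n * (∏ i, ker e (x i) (y i))
        * (wt W f * (if f x = u then 1 else 0)) := by
    intro f
    rw [outLaw_eq, Finset.mul_sum, Finset.mul_sum]
    exact Finset.sum_congr rfl (fun x _ => by ring)
  rw [Finset.sum_congr rfl (fun f _ => h1 f), Finset.sum_comm, Finset.mul_sum]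
  refine Finset.sum_congr rfl (fun x _ => ?_)
  rw [← Finset.mul_sum, wt_ind hW]
  ring

lemma outLaw_nonneg {n : ℕ} {e : ℝ} (h0 : 0 ≤ e) (h1 : e ≤ 1) (f : (Fin n → ℤˣ) → ℤˣ) (u : ℤˣ)
    (y : Fin n → ℤˣ) : 0 ≤ outLaw n e f u y := by
  rw [outLaw_eq]
  refine mul_nonneg (by positivity) (Finset.sum_nonneg (fun x _ => mul_nonneg
    (Finset.prod_nonneg (fun i _ => ker_nonneg h0 h1 _ _)) ?_))
  split_ifs <;> norm_num

lemma outLaw_marg {n : ℕ} {e : ℝ} (f : (Fin n → ℤˣ) → ℤˣ) (y : Fin n → ℤˣ) :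
    ∑ u : ℤˣ, outLaw n e f u y = (1 / 2) ^ n := by
  rw [sum_units, outLaw_one, outLaw_neg]; ring

theorem jl_le {n : ℕ} {W : (Fin n → ℤˣ) → ℤˣ → ℝ} (hW : IsKernel W) {e : ℝ} (h0 : 0 ≤ e)
    (h1 : e ≤ 1 / 2) : mutualInfo (fun u y => jl n (fun _ => e) W u y) ≤ 1 - h2 e := by
  have hfun : (fun u y => jl n (fun _ => e) W u y)
      = fun u y => ∑ f : (Fin n → ℤˣ) → ℤˣ, wt W f * outLaw n e f u y := by
    funext u y; exact jl_mix hW e u y
  rw [hfun]
  have hw0 : ∀ f : (Fin n → ℤˣ) → ℤˣ, 0 ≤ wt W f := fun f =>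
    Finset.prod_nonneg (fun x _ => hW.1 x (f x))
  refine (mutualInfo_convex (wt W) hw0 (wt_one hW) (fun f => outLaw n e f)
    (fun f u y => outLaw_nonneg h0 (by linarith) f u y) (fun _ => (1 / 2) ^ n)
    (fun f y => outLaw_marg f y)).trans ?_
  calc ∑ f : (Fin n → ℤˣ) → ℤˣ, wt W f * mutualInfo (outLaw n e f)
      ≤ ∑ f : (Fin n → ℤˣ) → ℤˣ, wt W f * (1 - h2 e) :=
        Finset.sum_le_sum (fun f _ =>
          mul_le_mul_of_nonneg_left (courtade_kumar n f e h0 h1) (hw0 f))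
    _ = 1 - h2 e := by rw [← Finset.sum_mul, wt_one hW, one_mul]

lemma jl_nonneg {n : ℕ} {W : (Fin n → ℤˣ) → ℤˣ → ℝ} (hW : IsKernel W) {e : ℝ} (h0 : 0 ≤ e)
    (h1 : e ≤ 1) (u : ℤˣ) (y : Fin n → ℤˣ) : 0 ≤ jl n (fun _ => e) W u y := by
  refine mul_nonneg (by positivity) (Finset.sum_nonneg (fun x _ => mul_nonneg
    (Finset.prod_nonneg (fun i _ => ker_nonneg h0 h1 _ _)) (hW.1 x u)))

/-- **Markov chain version.** -/
theorem chain_le {β : Type} [Fintype β] {n : ℕ} {W : (Fin n → ℤˣ) → ℤˣ → ℝ} (hW : IsKernel W)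
    {K : (Fin n → ℤˣ) → β → ℝ} (hK : IsKernel K) {e : ℝ} (h0 : 0 ≤ e) (h1 : e ≤ 1 / 2)
    {ε : Fin n → ℝ} (hε : ∀ i, e ≤ ε i ∧ ε i ≤ 1 - e) :
    mutualInfo (chainLaw n ε W K) ≤ 1 - h2 e := by
  -- the degradation parameters
  obtain ⟨d, hd0, hd1, hd⟩ : ∃ d : Fin n → ℝ, (∀ i, 0 ≤ d i) ∧ (∀ i, d i ≤ 1) ∧
      ∀ i, ε i = e * (1 - d i) + (1 - e) * d i := by
    rcases h1.lt_or_eq with h | h
    · have hp : 0 < 1 - 2 * e := by linarith
      refine ⟨fun i => (ε i - e) / (1 - 2 * e), fun i => div_nonneg (by linarith [(hε i).1]) hp.le,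
        fun i => ?_, fun i => ?_⟩
      · rw [div_le_one hp]; linarith [(hε i).2]
      · have : (ε i - e) / (1 - 2 * e) * (1 - 2 * e) = ε i - e := div_mul_cancel₀ _ hp.ne'
        linear_combination -this
    · refine ⟨fun _ => 0, fun _ => le_rfl, fun _ => zero_le_one, fun i => ?_⟩
      have := (hε i).1
      have := (hε i).2
      subst h; linarith
  have hε' : ε = fun i => e * (1 - d i) + (1 - e) * d i := funext hd
  have hPK := PK_kernel n d hd0 hd1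
  have hfun : chainLaw n ε W K
      = fun u v => ∑ y, jl n (fun _ => e) W u y * (∑ y', PK n d y y' * K y' v) := by
    funext u v
    rw [chain_eq, hε']
    rw [Finset.sum_congr rfl (fun y' _ => by rw [jl_degrade, Finset.sum_mul]), Finset.sum_comm]
    refine Finset.sum_congr rfl (fun y _ => ?_)
    rw [Finset.mul_sum]
    exact Finset.sum_congr rfl (fun y' _ => by ring)
  rw [hfun]
  have hK' : IsKernel (fun y v => ∑ y', PK n d y y' * K y' v) := by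
    refine ⟨fun y v => Finset.sum_nonneg (fun y' _ => mul_nonneg (hPK.1 _ _) (hK.1 _ _)),
      fun y => ?_⟩
    rw [Finset.sum_comm]
    calc ∑ y', ∑ v, PK n d y y' * K y' v = ∑ y', PK n d y y' :=
          Finset.sum_congr rfl (fun y' _ => by rw [← Finset.mul_sum, hK.2 y', mul_one])
      _ = 1 := hPK.2 y
  exact (data_processing (fun u y => jl_nonneg hW h0 (by linarith) u y) hK').trans (jl_le hW h0 h1)

end Vale.Agent.P322.H880
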