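import Mathlib
import Vale.Agent.P322.Bdl.B2
import Vale.Agent.P322.H880.Defs

/-! # P322: the deficit in the bias -/

namespace Vale.Agent.P322.H880

open Finset Vale.Agent.P322

lemma bias_eq (n : ℕ) (f : (Fin n → ℤˣ) → ℤˣ) : bias n f = avg n (toR f) := rfl

lemma ph_ge4 {x : ℝ} (h : |x| < 1) : x ^ 2 / 2 + x ^ 4 / 12 ≤ ph x := by
  have h1 := hasSum_ph h
  have h2 := sum_le_hasSum (Finset.range 2) (fun j _ => by
    have : (0 : ℝ) ≤ x ^ (2 * j + 2) := by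
      rw [show 2 * j + 2 = 2 * (j + 1) by ring, pow_mul]; positivity
    positivity) h1
  norm_num [Finset.sum_range_succ] at h2
  linarith

lemma HH_le4 {x : ℝ} (h : |x| ≤ 1) : HH x ≤ Real.log 2 - x ^ 2 / 2 - x ^ 4 / 12 := by
  rcases h.lt_or_eq with h1 | h1
  · rw [HH_eq_ph h1]
    have := ph_ge4 h1
    linarith only [this]
  · have hl := Real.log_two_gt_d9
    rcases (abs_eq (by norm_num : (0 : ℝ) ≤ 1)).mp h1 with h2 | h2
    · rw [h2, HH_one]; norm_num; linarith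
    · rw [h2, HH_neg_one]; norm_num; linarith

lemma HH_34 {ρ : ℝ} (h1 : 3 / 4 ≤ ρ) (h2 : ρ ≤ 1) : HH ρ ≤ 0.377 := by
  have hanti : HH ρ ≤ HH (3 / 4) := by
    unfold HH
    refine Real.binEntropy_strictAntiOn.antitoneOn ?_ ?_ ?_
    · constructor <;> norm_num
    · constructor
      · rw [show (2 : ℝ)⁻¹ = 1 / 2 by norm_num]; linarith
      · linarith
    · linarith
  refine hanti.trans ?_
  have hlog : Real.log (8 / 7) ≤ 0.13375 := by
    have h := Real.abs_log_sub_add_sum_range_le (x := (1 / 8 : ℝ)) (by norm_num [abs_of_pos]) 3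
    rw [abs_le] at h
    have e : Real.log (1 - 1 / 8) = - Real.log (8 / 7) := by
      rw [← Real.log_inv]; norm_num
    rw [e] at h
    norm_num [Finset.sum_range_succ, abs_of_pos] at h
    linarith [h.1, h.2]
  have hl := Real.log_two_lt_d9
  unfold HH Real.binEntropy
  have e1 : ((1 + 3 / 4) / 2 : ℝ)⁻¹ = 8 / 7 := by norm_num
  have e2 : (1 - (1 + 3 / 4) / 2 : ℝ)⁻¹ = 2 ^ 3 := by norm_num
  rw [e1, e2, Real.log_pow]
  push_cast
  linarith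

lemma SA_ge' {ρ μ : ℝ} (h1 : 3 / 4 ≤ ρ) (h2 : ρ ≤ 1) (hμ : |μ| ≤ 1) :
    HH ρ + HH μ - Real.log 2 + Real.log 2 / 4 * (ρ ^ 2 * μ ^ 2) ≤ SA ρ μ := by
  have hρ : |ρ| ≤ 1 := by rw [abs_le]; constructor <;> linarith only [h1, h2]
  have hB := HH_34 h1 h2
  have hl := Real.log_two_lt_d9
  have hl0 : 0 ≤ Real.log 2 := by have := Real.log_two_gt_d9; linarith only [this]
  have hB0 := HH_nn hρ
  have hΦ := HH_le4 hμ
  have hμ2 : μ ^ 2 ≤ 1 := by rw [sq_le_one_iff_abs_le_one]; exact hμ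
  have hρ2 : ρ ^ 2 ≤ 1 := by rw [sq_le_one_iff_abs_le_one]; exact hρ
  have h3 : HH ρ * (6 / 7 * μ ^ 2 + μ ^ 4 / 7) ≤ 0.377 * (6 / 7 * μ ^ 2 + μ ^ 4 / 7) :=
    mul_le_mul_of_nonneg_right hB (by positivity)
  have h5 : Real.log 2 / 4 * (ρ ^ 2 * μ ^ 2) ≤ 0.6931471808 / 4 * μ ^ 2 := by
    have a1 : ρ ^ 2 * μ ^ 2 ≤ 1 * μ ^ 2 := mul_le_mul_of_nonneg_right hρ2 (sq_nonneg _)
    have a2 : Real.log 2 / 4 * (ρ ^ 2 * μ ^ 2) ≤ Real.log 2 / 4 * (1 * μ ^ 2) :=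
      mul_le_mul_of_nonneg_left a1 (by positivity)
    have a3 : Real.log 2 / 4 * (1 * μ ^ 2) ≤ 0.6931471808 / 4 * (1 * μ ^ 2) :=
      mul_le_mul_of_nonneg_right (by linarith) (by positivity)
    linarith
  have h4 : SA ρ μ = HH ρ - HH ρ * (6 / 7 * μ ^ 2 + μ ^ 4 / 7) := by unfold SA; ring
  have hm0 : 0 ≤ μ ^ 2 := sq_nonneg μ
  have hm4 : 0 ≤ μ ^ 4 := by positivity
  rw [h4]; linarith only [hΦ, h3, h5, hm0, hm4]

lemma SB_ge' {ρ μ : ℝ} (hρ : |ρ| ≤ 1) (hμ : |μ| ≤ 1) :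
    HH ρ + HH μ - Real.log 2 + Real.log 2 / 4 * (ρ ^ 2 * μ ^ 2) ≤ SB ρ μ := by
  have h1 := HH_le hρ
  have h2 := HH_le hμ
  have hl : Real.log 2 ≤ 4 / 5 := by have := Real.log_two_lt_d9; linarith only [this]
  rw [SB_eq, bB_eq]
  have e1 : μ ^ 2 * HH ρ ≤ μ ^ 2 * (Real.log 2 - ρ ^ 2 / 2) :=
    mul_le_mul_of_nonneg_left h1 (sq_nonneg _)
  have e2 : ρ ^ 2 * HH μ ≤ ρ ^ 2 * (Real.log 2 - μ ^ 2 / 2) :=
    mul_le_mul_of_nonneg_left h2 (sq_nonneg _)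
  have e3 : ρ ^ 2 * μ ^ 2 * Real.log 2 ≤ ρ ^ 2 * μ ^ 2 * (4 / 5) :=
    mul_le_mul_of_nonneg_left hl (by positivity)
  linarith only [e3, e2, e1]

/-- From a potential with a deficit. -/
lemma of_step {ε : ℝ} (h0 : 0 ≤ ε) (h1 : ε ≤ 1) {S : ℝ → ℝ} (hS1 : S 1 ≤ 0)
    (hS2 : S (-1) ≤ 0) (hS0 : S 0 ≤ HH (1 - 2 * ε)) (hstep : Step (1 - 2 * ε) S)
    (hS : ∀ μ, |μ| ≤ 1 → HH (1 - 2 * ε) + HH μ - Real.log 2
      + Real.log 2 / 4 * ((1 - 2 * ε) ^ 2 * μ ^ 2) ≤ S μ)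
    (n : ℕ) (f : (Fin n → ℤˣ) → ℤˣ) :
    mutualInfo (outLaw n ε f) ≤ 1 - h2 ε - 1 / 4 * (1 - 2 * ε) ^ 2 * bias n f ^ 2 := by
  rw [mutualInfo_outLaw h0 h1 f, h2_eq, bias_eq]
  have hl : 0 < Real.log 2 := Real.log_pos (by norm_num)
  rw [div_le_iff₀ hl, sub_mul, sub_mul, div_mul_cancel₀ _ hl.ne', one_mul]
  have hF := forward_law h0 h1 hS1 hS2 hS0 hstep n (toR f) (toR_cases f)
  have hFabs : ∀ x, |toR f x| ≤ 1 := by
    intro x
    rcases toR_cases f x with h | h <;> rw [h] <;> simp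
  have := hS _ (abs_avg_le hFabs)
  linarith

/-- **The Courtade-Kumar inequality with a deficit quadratic in the bias.** -/
theorem deficit (n : ℕ) (f : (Fin n → ℤˣ) → ℤˣ) (ε : ℝ) (h0 : 0 ≤ ε) (h1 : ε ≤ 1 / 2) :
    mutualInfo (outLaw n ε f) ≤ 1 - h2 ε - 1 / 4 * (1 - 2 * ε) ^ 2 * bias n f ^ 2 := by
  rcases h0.eq_or_lt with h0' | h0'
  · -- no noise
    subst h0'
    rw [mutualInfo_outLaw le_rfl zero_le_one f, h2_eq, bias_eq]
    have hl : 0 < Real.log 2 := Real.log_pos (by norm_num)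
    have hF : ∀ x, |toR f x| ≤ 1 := by
      intro x
      rcases toR_cases f x with h | h <;> rw [h] <;> simp
    have h1' : HH (1 - 2 * 0) = 0 := by simp [HH]
    rw [h1', zero_div, sub_zero, div_le_iff₀ hl]
    have h2 : 0 ≤ avg n (fun y => HH (TT n 0 (toR f) y)) := by
      have := avg_mono (n := n) (g := fun _ => (0 : ℝ)) (g' := fun y => HH (TT n 0 (toR f) y))
        (fun y => HH_nn (abs_TT_le le_rfl zero_le_one hF y))
      rwa [avg_const] at this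
    have h3 := HH_le (abs_avg_le hF)
    have hl2 := Real.log_two_lt_d9
    have h4 : Real.log 2 * (avg n (toR f)) ^ 2 ≤ 1 * (avg n (toR f)) ^ 2 :=
      mul_le_mul_of_nonneg_right (by linarith) (sq_nonneg _)
    have h5 : 0 ≤ (avg n (toR f)) ^ 2 := sq_nonneg _
    linarith
  · rcases h1.eq_or_lt with h1' | h1'
    · have := ck_half n f
      subst h1'
      have e : (1 / 4 * (1 - 2 * (1 / 2)) ^ 2 * bias n f ^ 2 : ℝ) = 0 := by norm_num
      rw [e, sub_zero]; exact this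
    · have hρ0 : 0 < 1 - 2 * ε := by linarith
      have hρ1 : 1 - 2 * ε < 1 := by linarith
      rcases le_total (3 / 4) (1 - 2 * ε) with h | h
      · exact of_step h0 (by linarith) (SA_one _) (SA_neg_one _) (SA_zero _)
          (stepA_all (by linarith) hρ1) (fun μ hμ => SA_ge' h hρ1.le hμ) n f
      · exact of_step h0 (by linarith) (SB_one _).le (SB_neg_one _).le (SB_zero _).le
          (MonoT.step_regB hρ0 h)
          (fun μ hμ => SB_ge' (by rw [abs_le]; constructor <;> linarith) hμ) n f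

end Vale.Agent.P322.H880
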